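import Vale.Agent.P014Z.All

/-!
# P014: the formula of Birch and Swinnerton-Dyer in analytic rank at most one: the parts at two, at three and at all primes of rational isogenies, the full formula for curves with complex multiplication
-/

namespace Vale.Agent.Results.P014.Isogeny

open Vale.Agent.P014 Vale.Agent.P014T Vale.Agent.P014X Vale.Agent.P014Z

/-- Let `E` be an elliptic curve over `ℚ`, given by a global minimal equation. Its `L`-series has a
unique entire continuation `L`. If the order `r` of `L` at `s = 1` is at most one, then the rank of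
`E(ℚ)` is `r`, the group `Sha(E/ℚ)` is finite, and `L^(r)(E, 1) / r!` is `n` times
`Ω · Reg · #Sha · ∏ c_ℓ / (#E(ℚ)_tors)²` for a natural number `n` prime to `6` and to every prime
`p` such that `E` has a rational isogeny of degree `p`; moreover `n = 1` (the full formula) if `E`
has complex multiplication, or if every prime factor of the analytic order `n · #Sha` of `Sha` is
`2`, `3` or the degree of a rational isogeny of `E`. -/
theorem result (E : WeierstrassCurve ℚ) [E.IsElliptic] (hE : GlobalMinimal E) :
    (∃! L, IsHasseWeil E L) ∧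
    ∀ L, IsHasseWeil E L → ∀ r : ℕ, r ≤ 1 → analyticOrderAt L 1 = r →
      Module.finrank ℤ E.toAffine.Point = r ∧ Finite (Sha E) ∧
      (∃ P : Fin r → E.toAffine.Point, IsBasisModTorsion E P) ∧
      ∀ P : Fin r → E.toAffine.Point, IsBasisModTorsion E P → ∃ n : ℕ, n.Coprime 6 ∧
        iteratedDeriv r L 1 / (r.factorial : ℂ) = (n : ℂ) * ((realPeriod E * regulator E P *
          (Nat.card (Sha E) : ℝ) * (tamagawaProduct E : ℝ) / (torsionOrder E : ℝ) ^ 2 : ℝ) : ℂ) ∧
        (∀ p : ℕ, p.Prime → HasIsog E p → ¬ p ∣ n) ∧
        (HasCM E ∨ (∀ p : ℕ, p.Prime → p ∣ n * Nat.card (Sha E) → p ≤ 3 ∨ HasIsog E p) → n = 1) :=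
  P014Z.Top.isog_all E hE

end Vale.Agent.Results.P014.Isogeny
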